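import Vale.Agent.P365.T2.H913.Ly
import Vale.Agent.P365.T1.Defs

set_option linter.all false

/-!
# P365-T2: `l_y² N_y ≤ C² (1 + log⁺ (1/e_y))² Y_y` (helper913, for 678's sum over `y`)

`l_y = ∫_{-L}^{L} |G_yy(v)| dv`, `Nf` off-resonant far energy, `Yf = Nf / (1 + |sg|²)`.
-/

namespace P365T2.H913

open P365L P365O P365T1 MeasureTheory Set Matrix

variable {ι : Type*} [Fintype ι] [DecidableEq ι] {A : Matrix ι ι ℝ} {W : ι → ℂ}

theorem norm_Gr_rez (hA : A.IsSymm) (hW : ∀ x, (W x).im < 0) (y : ι) (v : ℝ) :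
    ‖Gr A (rez W y v) y y‖ = 1 / ‖(v : ℂ) - sz A W y‖ := by
  rw [Gr_rez hA hW, norm_inv, one_div]

theorem norm_Gr_rez_E (hA : A.IsSymm) (hW : ∀ x, (W x).im < 0) (y : ι) (E v : ℝ) :
    ‖Gr A (rez W y (v - E)) y y‖ = 1 / ‖((v : ℂ) - E) - sz A W y‖ := by
  rw [norm_Gr_rez hA hW]
  push_cast
  rfl

/-- `v ↦ |G_yy(v)|` is continuous -/
theorem continuous_norm_Gr_rez (hA : A.IsSymm) (hW : ∀ x, (W x).im < 0) (y : ι) (E : ℝ) :
    Continuous fun v : ℝ => ‖Gr A (rez W y (v - E)) y y‖ := by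
  have h := (continuous_inv_norm (sz_im_pos hA hW y)).comp
    (continuous_id.sub (continuous_const (y := E)) : Continuous fun v : ℝ => v - E)
  refine h.congr fun v => ?_
  rw [norm_Gr_rez hA hW]
  rfl

theorem norm_Gr_rez_pos (hA : A.IsSymm) (hW : ∀ x, (W x).im < 0) (y : ι) (v : ℝ) :
    0 < ‖Gr A (rez W y v) y y‖ := by
  rw [norm_Gr_rez hA hW]
  have h := (norm_sub_ge v (sz A W y)).2
  rw [abs_of_pos (sz_im_pos hA hW y)] at h
  exact one_div_pos.2 ((sz_im_pos hA hW y).trans_le h)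

theorem norm_Gr_rez_le (hA : A.IsSymm) (hW : ∀ x, (W x).im < 0) (y : ι) (v : ℝ) :
    ‖Gr A (rez W y v) y y‖ ≤ 1 / (-(W y).im) := by
  rw [norm_Gr_rez hA hW]
  have h := (norm_sub_ge v (sz A W y)).2
  rw [abs_of_pos (sz_im_pos hA hW y), sz_im] at h
  have h1 := sg_im_nonneg hA hW y
  have h2 := hW y
  exact one_div_le_one_div_of_le (by linarith) (by linarith)

theorem log_sz_le (hA : A.IsSymm) (hW : ∀ x, (W x).im < 0) (y : ι) :
    max 0 (Real.log (1 / (sz A W y).im)) ≤ max 0 (Real.log (1 / (-(W y).im))) := by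
  have h1 := sg_im_nonneg hA hW y
  have h2 := hW y
  have h3 : -(W y).im ≤ (sz A W y).im := by rw [sz_im]; linarith
  have h4 : 0 < -(W y).im := by linarith
  refine max_le_max le_rfl (Real.log_le_log (one_div_pos.2 (h4.trans_le h3)) ?_)
  exact one_div_le_one_div_of_le h4 h3

/-- **`l_y`** on the library objects -/
theorem int_tau_le (hA : A.IsSymm) (hW : ∀ x, (W x).im < 0) (y : ι) {L : ℝ} (hL : 0 < L)
    (E : ℝ) :
    ∫ v in Icc (-L) L, ‖Gr A (rez W y (v - E)) y y‖ ≤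
      CLy L E * (1 + max 0 (Real.log (1 / (-(W y).im)))) / (1 + ‖sz A W y‖) := by
  have h := setInt_inv_le_E hL E (sz_im_pos hA hW y)
  have h1 : (∫ v in Icc (-L) L, ‖Gr A (rez W y (v - E)) y y‖) =
      ∫ v in Icc (-L) L, 1 / ‖((v : ℂ) - E) - sz A W y‖ := by
    refine integral_congr_ae (Filter.Eventually.of_forall fun v => ?_)
    exact norm_Gr_rez_E hA hW y E v
  rw [h1]
  refine h.trans ?_
  have h2 : 0 < 1 + ‖sz A W y‖ := by positivity
  refine div_le_div_of_nonneg_right ?_ h2.le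
  exact mul_le_mul_of_nonneg_left (by linarith [log_sz_le hA hW y]) (CLy_pos hL E).le

theorem int_tau_nonneg (y : ι) (L E : ℝ) :
    0 ≤ ∫ v in Icc (-L) L, ‖Gr A (rez W y (v - E)) y y‖ :=
  integral_nonneg fun _ => norm_nonneg _

/-- **678 (b)**: `l_y² Nf ≤ CLy² (1 + log⁺ (1/e_y))² Yf` -/
theorem int_tau_sq_Nf_le (hA : A.IsSymm) (hW : ∀ x, (W x).im < 0) (f : ι → ℝ) (y : ι)
    {L : ℝ} (hL : 0 < L) (E : ℝ) :
    (∫ v in Icc (-L) L, ‖Gr A (rez W y (v - E)) y y‖) ^ 2 * Nf A W f y ≤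
      CLy L E ^ 2 * (1 + max 0 (Real.log (1 / (-(W y).im)))) ^ 2 * Yf A W f y := by
  have h := int_tau_le hA hW y hL E
  have h0 := int_tau_nonneg (A := A) (W := W) y L E
  have hN := Nf_nonneg (A := A) hW f y
  have hs := norm_sg_le_norm_sz hA hW y
  have hn : 0 ≤ ‖sz A W y‖ := norm_nonneg _
  set l := ∫ v in Icc (-L) L, ‖Gr A (rez W y (v - E)) y y‖
  set K := CLy L E * (1 + max 0 (Real.log (1 / (-(W y).im)))) with hK
  have h1 : l ^ 2 ≤ K ^ 2 / (1 + ‖sg A W y‖ ^ 2) := by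
    calc l ^ 2 ≤ (K / (1 + ‖sz A W y‖)) ^ 2 := pow_le_pow_left₀ h0 h 2
      _ = K ^ 2 / (1 + ‖sz A W y‖) ^ 2 := by rw [div_pow]
      _ ≤ _ := by
        refine div_le_div_of_nonneg_left (by positivity) (by positivity) ?_
        nlinarith
  have h2 : CLy L E ^ 2 * (1 + max 0 (Real.log (1 / (-(W y).im)))) ^ 2 = K ^ 2 := by
    rw [hK]; ring
  rw [h2, Yf]
  calc l ^ 2 * Nf A W f y ≤ K ^ 2 / (1 + ‖sg A W y‖ ^ 2) * Nf A W f y :=
        mul_le_mul_of_nonneg_right h1 hN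
    _ = _ := by ring

/-- the same with the interval integral -/
theorem int_tau_sq_Nf_le' (hA : A.IsSymm) (hW : ∀ x, (W x).im < 0) (f : ι → ℝ) (y : ι)
    {L : ℝ} (hL : 0 < L) (E : ℝ) :
    (∫ v in (-L)..L, ‖Gr A (rez W y (v - E)) y y‖) ^ 2 * Nf A W f y ≤
      CLy L E ^ 2 * (1 + max 0 (Real.log (1 / (-(W y).im)))) ^ 2 * Yf A W f y := by
  rw [intervalIntegral.integral_of_le (by linarith), ← integral_Icc_eq_integral_Ioc]
  exact int_tau_sq_Nf_le hA hW f y hL E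

/-- with `log⁺(1/e) ≤ Lg`: `l_y² Nf ≤ CLy² (1 + Lg)² Yf` -/
theorem int_tau_sq_Nf_le_of (hA : A.IsSymm) (hW : ∀ x, (W x).im < 0) (f : ι → ℝ) (y : ι)
    {L : ℝ} (hL : 0 < L) (E : ℝ) {Lg : ℝ} (h0 : 0 ≤ Lg) (hg : Real.exp (-Lg) ≤ -(W y).im) :
    (∫ v in Icc (-L) L, ‖Gr A (rez W y (v - E)) y y‖) ^ 2 * Nf A W f y ≤
      CLy L E ^ 2 * (1 + Lg) ^ 2 * Yf A W f y := by
  refine (int_tau_sq_Nf_le hA hW f y hL E).trans ?_
  have hY : 0 ≤ Yf A W f y := by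
    unfold Yf
    exact div_nonneg (Nf_nonneg hW f y) (by positivity)
  refine mul_le_mul_of_nonneg_right ?_ hY
  refine mul_le_mul_of_nonneg_left ?_ (sq_nonneg _)
  have h1 : max 0 (Real.log (1 / (-(W y).im))) ≤ Lg := by
    refine max_le h0 ?_
    have h2 : 1 / (-(W y).im) ≤ Real.exp Lg := by
      rw [one_div]
      refine inv_le_of_inv_le₀ (Real.exp_pos _) ?_
      rwa [← Real.exp_neg]
    have h3 : 0 < 1 / (-(W y).im) := one_div_pos.2 (by linarith [hW y])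
    calc _ ≤ Real.log (Real.exp Lg) := Real.log_le_log h3 h2
      _ = Lg := Real.log_exp _
  have h4 : 0 ≤ max 0 (Real.log (1 / (-(W y).im))) := le_max_left _ _
  exact pow_le_pow_left₀ (by linarith) (by linarith) 2

end P365T2.H913
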