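import Mathlib

set_option linter.all false

/-!
# P365-T2: one-variable half of the local law error (helper913)

`int_inv_le`: `∫_{-L}^{L} dv / |v - s| ≤ C (1 + log⁺ (1 / Im s)) / (1 + |s|)` (775's `l_y`).
-/

namespace P365T2.H913

open MeasureTheory Set Real

/-- pointwise lower bound for the distance to `s` -/
theorem norm_sub_ge (v : ℝ) (s : ℂ) : |v - s.re| ≤ ‖(v : ℂ) - s‖ ∧ |s.im| ≤ ‖(v : ℂ) - s‖ := by
  constructor
  · have h := Complex.abs_re_le_norm ((v : ℂ) - s)
    simpa using h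
  · have h := Complex.abs_im_le_norm ((v : ℂ) - s)
    simpa using h

theorem inv_norm_le (v : ℝ) {s : ℂ} (hs : 0 < s.im) :
    1 / ‖(v : ℂ) - s‖ ≤ 2 / (|v - s.re| + s.im) := by
  obtain ⟨h1, h2⟩ := norm_sub_ge v s
  rw [abs_of_pos hs] at h2
  have h0 : 0 < ‖(v : ℂ) - s‖ := hs.trans_le h2
  have h3 : 0 < |v - s.re| + s.im := by positivity
  rw [div_le_div_iff₀ h0 h3]
  linarith

/-- `∫_{a}^{b} dv / (|v - c| + g) ≤ 2 log ((|b - c| + |a - c| + g) / g)` in crude form -/
theorem int_half {c g R : ℝ} (hg : 0 < g) (hR : 0 ≤ R) :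
    ∫ v in (c - R)..(c + R), 1 / (|v - c| + g) = 2 * Real.log ((R + g) / g) := by
  have hcont : Continuous fun v : ℝ => 1 / (|v - c| + g) := by
    refine continuous_const.div (by fun_prop) fun v => ?_
    positivity
  have h1 : ∫ v in c..(c + R), 1 / (|v - c| + g) = Real.log ((R + g) / g) := by
    have h : ∀ v ∈ uIcc c (c + R), 1 / (|v - c| + g) = (v - c + g)⁻¹ := by
      intro v hv
      rw [uIcc_of_le (by linarith)] at hv
      rw [abs_of_nonneg (by linarith [hv.1]), one_div]
    rw [intervalIntegral.integral_congr h]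
    have h2 : ∫ v in c..(c + R), (v - c + g)⁻¹ = ∫ v in g..(R + g), v⁻¹ := by
      have := intervalIntegral.integral_comp_add_right (a := c) (b := c + R) (fun v => v⁻¹)
        (g - c)
      rw [show c + (g - c) = g by ring, show c + R + (g - c) = R + g by ring] at this
      rw [← this]
      refine intervalIntegral.integral_congr fun v _ => ?_
      congr 1
      ring
    rw [h2, integral_inv_of_pos hg (by linarith)]
  have h2 : ∫ v in (c - R)..c, 1 / (|v - c| + g) = Real.log ((R + g) / g) := by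
    have h3 := intervalIntegral.integral_comp_sub_left (a := c - R) (b := c)
      (fun v => 1 / (|v - c| + g)) (2 * c)
    rw [show 2 * c - c = c by ring, show 2 * c - (c - R) = c + R by ring, h1] at h3
    rw [← h3]
    refine intervalIntegral.integral_congr fun v _ => ?_
    rw [show 2 * c - v - c = -(v - c) by ring, abs_neg]
  rw [← intervalIntegral.integral_add_adjacent_intervals (b := c)
    (hcont.intervalIntegrable _ _) (hcont.intervalIntegrable _ _), h1, h2]
  ring

theorem continuous_inv_norm {s : ℂ} (hs : 0 < s.im) :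
    Continuous fun v : ℝ => 1 / ‖(v : ℂ) - s‖ := by
  refine continuous_const.div (by fun_prop) fun v => ?_
  have h2 := (norm_sub_ge v s).2
  rw [abs_of_pos hs] at h2
  linarith

/-- **775's `l_y`** -/
theorem int_inv_le {L : ℝ} (hL : 0 < L) {s : ℂ} (hs : 0 < s.im) :
    ∫ v in (-L)..L, 1 / ‖(v : ℂ) - s‖ ≤
      (4 * (1 + 2 * L) * (1 + 3 * L)) * (1 + max 0 (Real.log (1 / s.im))) / (1 + ‖s‖) := by
  have hc := continuous_inv_norm hs
  have hlog : 0 ≤ max 0 (Real.log (1 / s.im)) := le_max_left _ _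
  have hns : 0 ≤ ‖s‖ := norm_nonneg s
  rcases le_total (2 * L) ‖s‖ with h | h
  · -- far
    have h1 : ∀ v ∈ Icc (-L) L, 1 / ‖(v : ℂ) - s‖ ≤ 2 / ‖s‖ := by
      intro v hv
      have h2 : ‖s‖ - ‖(v : ℂ)‖ ≤ ‖(v : ℂ) - s‖ := by
        rw [norm_sub_rev]
        exact norm_sub_norm_le s v
      have h3 : ‖(v : ℂ)‖ ≤ L := by
        rw [Complex.norm_real, Real.norm_eq_abs]
        exact abs_le.2 ⟨by linarith [hv.1], hv.2⟩
      have h4 : 0 < ‖s‖ := by linarith
      have h5 : ‖s‖ / 2 ≤ ‖(v : ℂ) - s‖ := by linarith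
      calc 1 / ‖(v : ℂ) - s‖ ≤ 1 / (‖s‖ / 2) := one_div_le_one_div_of_le (by linarith) h5
        _ = 2 / ‖s‖ := by field_simp
    have h4 : 0 < ‖s‖ := by linarith
    have h6 : ∫ v in (-L)..L, 1 / ‖(v : ℂ) - s‖ ≤ ∫ v in (-L)..L, 2 / ‖s‖ :=
      intervalIntegral.integral_mono_on (by linarith) (hc.intervalIntegrable _ _)
        (continuous_const.intervalIntegrable _ _) h1
    rw [intervalIntegral.integral_const, smul_eq_mul] at h6
    refine h6.trans ?_
    have h7 : (L - -L) * (2 / ‖s‖) ≤ (4 * (1 + 2 * L) * (1 + 3 * L)) / (1 + ‖s‖) := by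
      rw [show (L - -L) * (2 / ‖s‖) = 4 * L / ‖s‖ by ring, div_le_div_iff₀ h4 (by linarith)]
      nlinarith [mul_pos hL hL, mul_nonneg hL.le hns]
    refine h7.trans ?_
    refine div_le_div_of_nonneg_right ?_ (by linarith)
    have : 0 ≤ 4 * (1 + 2 * L) * (1 + 3 * L) := by positivity
    nlinarith
  · -- near
    set g := s.im with hg
    have h1 : ∫ v in (-L)..L, 1 / ‖(v : ℂ) - s‖ ≤
        ∫ v in (-L)..L, 2 * (1 / (|v - s.re| + g)) := by
      refine intervalIntegral.integral_mono_on (by linarith) (hc.intervalIntegrable _ _) ?_ ?_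
      · refine (Continuous.intervalIntegrable ?_ _ _)
        refine continuous_const.mul (continuous_const.div (by fun_prop) fun v => ?_)
        positivity
      · intro v _
        have := inv_norm_le v hs
        calc _ ≤ _ := this
          _ = _ := by ring
    have hre : |s.re| ≤ ‖s‖ := Complex.abs_re_le_norm s
    obtain ⟨hr1, hr2⟩ := abs_le.1 (hre.trans h)
    have hcont : Continuous fun v : ℝ => 1 / (|v - s.re| + g) := by
      refine continuous_const.div (by fun_prop) fun v => ?_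
      positivity
    have h2 : ∫ v in (-L)..L, 1 / (|v - s.re| + g) ≤
        ∫ v in (s.re - 3 * L)..(s.re + 3 * L), 1 / (|v - s.re| + g) := by
      refine intervalIntegral.integral_mono_interval (by linarith) (by linarith) (by linarith) ?_
        (hcont.intervalIntegrable _ _)
      filter_upwards with v
      simp only [Pi.zero_apply]
      positivity
    rw [int_half hs (by linarith)] at h2
    rw [intervalIntegral.integral_const_mul] at h1
    have h3 : Real.log ((3 * L + g) / g) ≤ (1 + 3 * L) * (1 + max 0 (Real.log (1 / g))) := by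
      rw [show (3 * L + g) / g = 1 + 3 * L * (1 / g) by field_simp; ring]
      have hp : 0 < 1 / g := by positivity
      rcases le_total (1 / g) 1 with h5 | h5
      · have h6 : Real.log (1 + 3 * L * (1 / g)) ≤ 3 * L * (1 / g) := by
          have := Real.log_le_sub_one_of_pos (x := 1 + 3 * L * (1 / g)) (by positivity)
          linarith
        have : 3 * L * (1 / g) ≤ 3 * L * 1 := mul_le_mul_of_nonneg_left h5 (by positivity)
        nlinarith [mul_nonneg (by linarith : (0:ℝ) ≤ 1 + 3 * L) hlog]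
      · have h6 : Real.log (1 + 3 * L * (1 / g)) ≤ Real.log ((1 + 3 * L) * (1 / g)) := by
          refine Real.log_le_log (by positivity) ?_
          nlinarith
        rw [Real.log_mul (by positivity) hp.ne'] at h6
        have h7 : Real.log (1 + 3 * L) ≤ 3 * L := by
          have := Real.log_le_sub_one_of_pos (x := 1 + 3 * L) (by positivity)
          linarith
        have h8 : Real.log (1 / g) ≤ max 0 (Real.log (1 / g)) := le_max_right _ _
        nlinarith [mul_nonneg (by linarith : (0:ℝ) ≤ 3 * L) hlog]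
    have h4 : ∫ v in (-L)..L, 1 / ‖(v : ℂ) - s‖ ≤
        4 * ((1 + 3 * L) * (1 + max 0 (Real.log (1 / g)))) := by
      linarith
    refine h4.trans ?_
    rw [le_div_iff₀ (by linarith)]
    have h9 : 0 ≤ 4 * ((1 + 3 * L) * (1 + max 0 (Real.log (1 / g)))) := by positivity
    nlinarith [mul_le_mul_of_nonneg_left (by linarith : 1 + ‖s‖ ≤ 1 + 2 * L) h9]

/-- constant of `int_inv_le_E` -/
noncomputable def CLy (L E : ℝ) : ℝ := (1 + |E|) * (4 * (1 + 2 * L) * (1 + 3 * L))

theorem CLy_pos {L : ℝ} (hL : 0 < L) (E : ℝ) : 0 < CLy L E := by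
  unfold CLy
  positivity

/-- **775's `l_y`**, potentials centred at the energy: `t = 1 / ((v - E) - s)` -/
theorem int_inv_le_E {L : ℝ} (hL : 0 < L) (E : ℝ) {s : ℂ} (hs : 0 < s.im) :
    ∫ v in (-L)..L, 1 / ‖((v : ℂ) - E) - s‖ ≤
      CLy L E * (1 + max 0 (Real.log (1 / s.im))) / (1 + ‖s‖) := by
  have him : (s + (E : ℂ)).im = s.im := by simp
  have h := int_inv_le hL (s := s + E) (by rw [him]; exact hs)
  rw [him] at h
  have h1 : ∫ v in (-L)..L, 1 / ‖((v : ℂ) - E) - s‖ =
      ∫ v in (-L)..L, 1 / ‖(v : ℂ) - (s + E)‖ := by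
    refine intervalIntegral.integral_congr fun v _ => ?_
    rw [show (v : ℂ) - E - s = v - (s + E) by ring]
  rw [h1]
  refine h.trans ?_
  have h2 : 1 + ‖s‖ ≤ (1 + |E|) * (1 + ‖s + (E : ℂ)‖) := by
    have h3 : ‖s‖ ≤ ‖s + (E : ℂ)‖ + |E| := by
      have h4 := norm_sub_le (s + (E : ℂ)) (E : ℂ)
      rw [add_sub_cancel_right, Complex.norm_real, Real.norm_eq_abs] at h4
      exact h4
    nlinarith [abs_nonneg E, norm_nonneg (s + (E : ℂ))]
  have hn : 0 ≤ ‖s‖ := norm_nonneg s
  have hn' : 0 ≤ ‖s + (E : ℂ)‖ := norm_nonneg _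
  have hm : 0 ≤ (4 * (1 + 2 * L) * (1 + 3 * L)) * (1 + max 0 (Real.log (1 / s.im))) := by
    have : 0 ≤ max 0 (Real.log (1 / s.im)) := le_max_left _ _
    positivity
  unfold CLy
  rw [div_le_div_iff₀ (by linarith) (by linarith)]
  nlinarith [mul_le_mul_of_nonneg_left h2 hm]

/-- the same over the real line, restricted to `Icc (-L) L` -/
theorem setInt_inv_le_E {L : ℝ} (hL : 0 < L) (E : ℝ) {s : ℂ} (hs : 0 < s.im) :
    ∫ v in Set.Icc (-L) L, 1 / ‖((v : ℂ) - E) - s‖ ≤
      CLy L E * (1 + max 0 (Real.log (1 / s.im))) / (1 + ‖s‖) := by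
  rw [integral_Icc_eq_integral_Ioc, ← intervalIntegral.integral_of_le (by linarith)]
  exact int_inv_le_E hL E hs

/-- squared form: `l² ≤ C² (1 + log⁺)² / (1 + |s|²)` -/
theorem int_inv_sq_le_E {L : ℝ} (hL : 0 < L) (E : ℝ) {s : ℂ} (hs : 0 < s.im) :
    (∫ v in (-L)..L, 1 / ‖((v : ℂ) - E) - s‖) ^ 2 ≤
      CLy L E ^ 2 * (1 + max 0 (Real.log (1 / s.im))) ^ 2 / (1 + ‖s‖ ^ 2) := by
  have h := int_inv_le_E hL E hs
  have h0 : 0 ≤ ∫ v in (-L)..L, 1 / ‖((v : ℂ) - E) - s‖ :=
    intervalIntegral.integral_nonneg (by linarith) fun v _ => by positivity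
  have hn : 0 ≤ ‖s‖ := norm_nonneg s
  calc _ ≤ (CLy L E * (1 + max 0 (Real.log (1 / s.im))) / (1 + ‖s‖)) ^ 2 :=
        pow_le_pow_left₀ h0 h 2
    _ = CLy L E ^ 2 * (1 + max 0 (Real.log (1 / s.im))) ^ 2 / (1 + ‖s‖) ^ 2 := by
        rw [div_pow, mul_pow]
    _ ≤ _ := by
        refine div_le_div_of_nonneg_left (by positivity) (by positivity) ?_
        nlinarith

end P365T2.H913
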