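import Vale.Agent.P365.T2.H913.LyYf
import Vale.Agent.P365.T2.H789.Int

set_option linter.all false

/-!
# P365-T2: Young per site (helper913, for 678's one-site output)

From `|f v - f v₀| ≤ |v - v₀| τ v τ v₀ (a N + b √N √(Q v₀))`:
`|∫ ρ' f| ≤ C (∫ τ)² N + k ∫ ρ τ² Q`, every `k > 0`.
-/

namespace P365T2.H913

open P365L P365O P365T1 MeasureTheory Set Filter Matrix
open Vale.Agent.P365.T2.H789 (Dens)
open P365L.T2.Path (SmLaw)

/-- constant of the hub part -/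
noncomputable def CY (L C0 C1 a b k : ℝ) : ℝ :=
  2 * L * C1 * C0 * a + (2 * L * C1 * b) ^ 2 / (4 * k)

theorem CY_nonneg {L C0 C1 a b k : ℝ} (hL : 0 ≤ L) (h0 : 0 ≤ C0) (h1 : 0 ≤ C1) (ha : 0 ≤ a)
    (hk : 0 < k) : 0 ≤ CY L C0 C1 a b k := by
  unfold CY
  positivity

section one

variable {ρ ρ' : ℝ → ℝ} {L C0 C1 : ℝ}

/-- **Young per site, one variable** -/
theorem Dens_young (h : Dens ρ ρ' L C0 C1) {f τ Q : ℝ → ℝ} {a b N k : ℝ} (hf : Continuous f)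
    (hτ : Continuous τ) (hQ : Continuous Q) (hτ0 : ∀ t, 0 ≤ τ t) (hQ0 : ∀ t, 0 ≤ Q t)
    (ha : 0 ≤ a) (hb : 0 ≤ b) (hN : 0 ≤ N) (hk : 0 < k)
    (H : ∀ v v₀, |v| ≤ L → |v₀| ≤ L → |f v - f v₀| ≤
      |v - v₀| * (τ v * τ v₀) * (a * N + b * (Real.sqrt N * Real.sqrt (Q v₀)))) :
    |∫ v, ρ' v * f v| ≤ CY L C0 C1 a b k * ((∫ t in (-L)..L, τ t) ^ 2 * N) +
      k * ∫ t, ρ t * (τ t ^ 2 * Q t) := by
  have hL := h.L0
  have hC := h.C1_nonneg
  have hl : 0 ≤ ∫ t in (-L)..L, τ t :=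
    intervalIntegral.integral_nonneg (by linarith) fun t _ => hτ0 t
  have h1 := h.int_le (f := f) (τ := τ) (be := fun t => b * (Real.sqrt N * Real.sqrt (Q t)))
    (al := a * N) hf hτ (continuous_const.mul (continuous_const.mul hQ.sqrt)) hτ0
    (fun t => by positivity) (by positivity) H
  refine h1.trans ?_
  set l : ℝ := ∫ t in (-L)..L, τ t with hldef
  have hi : Integrable fun t => ρ t * (τ t ^ 2 * Q t) := h.integrable_mul ((hτ.pow 2).mul hQ)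
  have hc : Integrable ρ := by
    have := h.integrable_mul (continuous_const (y := (1 : ℝ)))
    simpa using this
  have hi2 : Integrable fun t => ρ t * (τ t * (b * (Real.sqrt N * Real.sqrt (Q t)))) :=
    h.integrable_mul (hτ.mul (continuous_const.mul (continuous_const.mul hQ.sqrt)))
  have key : 2 * L * C1 * l * ∫ t, ρ t * (τ t * (b * (Real.sqrt N * Real.sqrt (Q t)))) ≤
      (2 * L * C1 * b) ^ 2 / (4 * k) * (l ^ 2 * N) + k * ∫ t, ρ t * (τ t ^ 2 * Q t) := by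
    rw [← integral_const_mul]
    have h2 : (∫ t, 2 * L * C1 * l * (ρ t * (τ t * (b * (Real.sqrt N * Real.sqrt (Q t)))))) ≤
        ∫ t, (((2 * L * C1 * b) ^ 2 / (4 * k) * (l ^ 2 * N)) * ρ t +
          k * (ρ t * (τ t ^ 2 * Q t))) := by
      refine integral_mono (hi2.const_mul _) ((hc.const_mul _).add (hi.const_mul _)) fun t => ?_
      have hr := h.nn t
      set x := 2 * L * C1 * b * l * Real.sqrt N with hx
      set z := τ t * Real.sqrt (Q t) with hz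
      have hx2 : x ^ 2 = (2 * L * C1 * b) ^ 2 * (l ^ 2 * N) := by
        rw [hx, mul_pow, Real.sq_sqrt hN]; ring
      have hz2 : z ^ 2 = τ t ^ 2 * Q t := by
        rw [hz, mul_pow, Real.sq_sqrt (hQ0 t)]
      have h3 : x * z ≤ x ^ 2 / (4 * k) + k * z ^ 2 := by
        have h4 : x ^ 2 / (4 * k) + k * z ^ 2 - x * z = (x - 2 * k * z) ^ 2 / (4 * k) := by
          field_simp
          ring
        have h5 : 0 ≤ (x - 2 * k * z) ^ 2 / (4 * k) := by positivity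
        linarith
      have h6 := mul_le_mul_of_nonneg_left h3 hr
      show 2 * L * C1 * l * (ρ t * (τ t * (b * (Real.sqrt N * Real.sqrt (Q t))))) ≤ _
      calc 2 * L * C1 * l * (ρ t * (τ t * (b * (Real.sqrt N * Real.sqrt (Q t)))))
          = ρ t * (x * z) := by rw [hx, hz]; ring
        _ ≤ ρ t * (x ^ 2 / (4 * k) + k * z ^ 2) := h6
        _ = _ := by rw [hx2, hz2]; ring
    refine h2.trans (le_of_eq ?_)
    rw [integral_add (hc.const_mul _) (hi.const_mul _), integral_const_mul, integral_const_mul,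
      h.one, mul_one]
  unfold CY
  calc 2 * L * C1 * l * (C0 * (a * N) * l +
        ∫ t, ρ t * (τ t * (b * (Real.sqrt N * Real.sqrt (Q t)))))
      = 2 * L * C1 * C0 * a * (l ^ 2 * N) + 2 * L * C1 * l *
        ∫ t, ρ t * (τ t * (b * (Real.sqrt N * Real.sqrt (Q t)))) := by ring
    _ ≤ 2 * L * C1 * C0 * a * (l ^ 2 * N) + ((2 * L * C1 * b) ^ 2 / (4 * k) * (l ^ 2 * N) +
        k * ∫ t, ρ t * (τ t ^ 2 * Q t)) := by linarith
    _ = _ := by ring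

end one

section lib

variable {ι : Type*} [Fintype ι] [DecidableEq ι] {A : Matrix ι ι ℝ} {W : ι → ℂ}
variable {ρ ρ' : ℝ → ℝ} {L C0 C1 : ℝ}

/-- **Young per site on the library objects**, several fields `F j`:
`N = Σ_j Nf (F j) y`, `τ v = |G_yy(v)|` -/
theorem site_young (hA : A.IsSymm) (hW : ∀ x, (W x).im < 0) (y : ι) (h : Dens ρ ρ' L C0 C1)
    (hL : 0 < L) (E : ℝ) {κ : Type*} (S : Finset κ) (F : κ → ι → ℝ) {f Q : ℝ → ℝ} {a b k : ℝ}
    (hf : Continuous f) (hQ : Continuous Q) (hQ0 : ∀ t, 0 ≤ Q t) (ha : 0 ≤ a) (hb : 0 ≤ b)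
    (hk : 0 < k)
    (H : ∀ v v₀, |v| ≤ L → |v₀| ≤ L → |f v - f v₀| ≤
      |v - v₀| * (‖Gr A (rez W y (v - E)) y y‖ * ‖Gr A (rez W y (v₀ - E)) y y‖) *
        (a * (∑ j ∈ S, Nf A W (F j) y) +
          b * (Real.sqrt (∑ j ∈ S, Nf A W (F j) y) * Real.sqrt (Q v₀)))) :
    |∫ v, ρ' v * f v| ≤ CY L C0 C1 a b k * (CLy L E ^ 2 *
        (1 + max 0 (Real.log (1 / (-(W y).im)))) ^ 2 * ∑ j ∈ S, Yf A W (F j) y) +
      k * ∫ t, ρ t * (‖Gr A (rez W y (t - E)) y y‖ ^ 2 * Q t) := by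
  have h1 := Dens_young h (f := f) (τ := fun v => ‖Gr A (rez W y (v - E)) y y‖) (Q := Q)
    (a := a) (b := b) (N := ∑ j ∈ S, Nf A W (F j) y) (k := k) hf
    (continuous_norm_Gr_rez hA hW y E) hQ (fun _ => norm_nonneg _) hQ0 ha hb
    (Finset.sum_nonneg fun j _ => Nf_nonneg hW (F j) y) hk H
  refine h1.trans ?_
  have h2 : (∫ t in (-L)..L, ‖Gr A (rez W y (t - E)) y y‖) ^ 2 * (∑ j ∈ S, Nf A W (F j) y) ≤
      CLy L E ^ 2 * (1 + max 0 (Real.log (1 / (-(W y).im)))) ^ 2 *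
        ∑ j ∈ S, Yf A W (F j) y := by
    rw [Finset.mul_sum, Finset.mul_sum]
    exact Finset.sum_le_sum fun j _ => int_tau_sq_Nf_le' hA hW (F j) y hL E
  have h3 := mul_le_mul_of_nonneg_left h2
    (CY_nonneg (b := b) h.L0 h.C0_nonneg h.C1_nonneg ha hk)
  linarith

/-- the same with the law: `ρ` the density of `μ` -/
theorem site_young_law (hA : A.IsSymm) (hW : ∀ x, (W x).im < 0) (y : ι)
    (h : Dens ρ ρ' L C0 C1) {μ : Measure ℝ} (hμ : SmLaw μ ρ ρ')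
    (hL : 0 < L) (E : ℝ) {κ : Type*} (S : Finset κ) (F : κ → ι → ℝ) {f Q : ℝ → ℝ} {a b k : ℝ}
    (hf : Continuous f) (hQ : Continuous Q) (hQ0 : ∀ t, 0 ≤ Q t) (ha : 0 ≤ a) (hb : 0 ≤ b)
    (hk : 0 < k)
    (H : ∀ v v₀, |v| ≤ L → |v₀| ≤ L → |f v - f v₀| ≤
      |v - v₀| * (‖Gr A (rez W y (v - E)) y y‖ * ‖Gr A (rez W y (v₀ - E)) y y‖) *
        (a * (∑ j ∈ S, Nf A W (F j) y) +
          b * (Real.sqrt (∑ j ∈ S, Nf A W (F j) y) * Real.sqrt (Q v₀)))) :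
    |∫ v, ρ' v * f v| ≤ CY L C0 C1 a b k * (CLy L E ^ 2 *
        (1 + max 0 (Real.log (1 / (-(W y).im)))) ^ 2 * ∑ j ∈ S, Yf A W (F j) y) +
      k * ∫ t, ‖Gr A (rez W y (t - E)) y y‖ ^ 2 * Q t ∂μ := by
  rw [Vale.Agent.P365.T2.H789.smLaw_integral hμ]
  exact site_young hA hW y h hL E S F hf hQ hQ0 ha hb hk H

end lib

end P365T2.H913
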