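import Mathlib

set_option linter.all false

/-!
# P365-T2: numbers of the flows (helper913, shadow of PropD / PropB)

`S ≥ 1 / η`, `η ≤ η₀`: every error of the form `K * (η / S ^ 8) * S ^ k` (`k ≤ 8`),
`K * √(η / S ^ 8) * S ^ k` (`k ≤ 4`), `K * exp (-(S / η)) * exp (c S)`, `K * exp (c S) / R ^ 2`
(`R ≥ exp (c' S)`, `c < 2 c'`) is at most `ε`.
-/

namespace P365T2.H913

open Real

/-- basic consequences of `0 < η ≤ 1`, `1 / η ≤ S` -/
theorem S_facts {η S : ℝ} (h0 : 0 < η) (h1 : η ≤ 1) (hS : 1 / η ≤ S) :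
    1 ≤ S ∧ 0 < S ∧ 1 / S ≤ η := by
  have h2 : 1 ≤ 1 / η := by rw [le_div_iff₀ h0]; linarith
  have h3 : 1 ≤ S := h2.trans hS
  refine ⟨h3, by linarith, ?_⟩
  rw [div_le_iff₀ (by linarith)]
  rwa [div_le_iff₀ h0, mul_comm] at hS

/-- **hub errors**, linear form -/
theorem hub_small (K ε : ℝ) (hε : 0 < ε) :
    ∃ η₀ : ℝ, 0 < η₀ ∧ η₀ ≤ 1 ∧ ∀ η S : ℝ, 0 < η → η ≤ η₀ → 1 / η ≤ S → ∀ k : ℕ, k ≤ 8 →
      K * (η / S ^ 8) * S ^ k ≤ ε := by
  refine ⟨min 1 (ε / (1 + |K|)), by positivity, min_le_left _ _, ?_⟩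
  intro η S h0 h1 hS k hk
  obtain ⟨h3, h4, -⟩ := S_facts h0 (h1.trans (min_le_left _ _)) hS
  have h5 : S ^ k ≤ S ^ 8 := pow_le_pow_right₀ h3 hk
  have h8 : 0 < S ^ 8 := by positivity
  have h6 : (η / S ^ 8) * S ^ k ≤ η := by
    rw [div_mul_eq_mul_div, div_le_iff₀ h8]
    exact mul_le_mul_of_nonneg_left h5 h0.le
  have h7 : 0 ≤ (η / S ^ 8) * S ^ k := by positivity
  calc K * (η / S ^ 8) * S ^ k = K * ((η / S ^ 8) * S ^ k) := by ring
    _ ≤ (1 + |K|) * ((η / S ^ 8) * S ^ k) :=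
        mul_le_mul_of_nonneg_right (by linarith [le_abs_self K]) h7
    _ ≤ (1 + |K|) * η := mul_le_mul_of_nonneg_left h6 (by positivity)
    _ ≤ (1 + |K|) * (ε / (1 + |K|)) :=
        mul_le_mul_of_nonneg_left (h1.trans (min_le_right _ _)) (by positivity)
    _ = ε := by field_simp

/-- **hub errors**, square root form (collective Cauchy-Schwarz) -/
theorem hub_small_sqrt (K ε : ℝ) (hε : 0 < ε) :
    ∃ η₀ : ℝ, 0 < η₀ ∧ η₀ ≤ 1 ∧ ∀ η S : ℝ, 0 < η → η ≤ η₀ → 1 / η ≤ S → ∀ k : ℕ, k ≤ 4 →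
      K * √(η / S ^ 8) * S ^ k ≤ ε := by
  refine ⟨min 1 ((ε / (1 + |K|)) ^ 2), by positivity, min_le_left _ _, ?_⟩
  intro η S h0 h1 hS k hk
  obtain ⟨h3, h4, -⟩ := S_facts h0 (h1.trans (min_le_left _ _)) hS
  have h5 : S ^ k ≤ S ^ 4 := pow_le_pow_right₀ h3 hk
  have h8 : √(η / S ^ 8) = √η / S ^ 4 := by
    rw [Real.sqrt_div' _ (by positivity), show S ^ 8 = (S ^ 4) ^ 2 by ring,
      Real.sqrt_sq (by positivity)]
  have h9 : √η ≤ ε / (1 + |K|) := by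
    rw [← Real.sqrt_sq (show 0 ≤ ε / (1 + |K|) by positivity)]
    exact Real.sqrt_le_sqrt (h1.trans (min_le_right _ _))
  have h4' : 0 < S ^ 4 := by positivity
  have h6 : (√η / S ^ 4) * S ^ k ≤ √η := by
    rw [div_mul_eq_mul_div, div_le_iff₀ h4']
    exact mul_le_mul_of_nonneg_left h5 (Real.sqrt_nonneg _)
  have h7 : 0 ≤ (√η / S ^ 4) * S ^ k := by positivity
  rw [h8]
  calc K * (√η / S ^ 4) * S ^ k = K * ((√η / S ^ 4) * S ^ k) := by ring
    _ ≤ (1 + |K|) * ((√η / S ^ 4) * S ^ k) :=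
        mul_le_mul_of_nonneg_right (by linarith [le_abs_self K]) h7
    _ ≤ (1 + |K|) * √η := mul_le_mul_of_nonneg_left h6 (by positivity)
    _ ≤ (1 + |K|) * (ε / (1 + |K|)) := mul_le_mul_of_nonneg_left h9 (by positivity)
    _ = ε := by field_simp

/-- **static share**: `exp (-(S / η))` beats every `exp (c S)` -/
theorem share_small (K c ε : ℝ) (hε : 0 < ε) :
    ∃ η₀ : ℝ, 0 < η₀ ∧ η₀ ≤ 1 ∧ ∀ η S : ℝ, 0 < η → η ≤ η₀ → 1 / η ≤ S →
      K * (exp (-(S / η)) * exp (c * S)) ≤ ε := by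
  refine ⟨min (1 / (1 + |c|)) (ε / (1 + |K|)), by positivity,
    (min_le_left _ _).trans (by rw [div_le_one (by positivity)]; linarith [abs_nonneg c]), ?_⟩
  intro η S h0 h1 hS
  have hη1 : η ≤ 1 := h1.trans ((min_le_left _ _).trans
    (by rw [div_le_one (by positivity)]; linarith [abs_nonneg c]))
  obtain ⟨h3, h4, h5⟩ := S_facts h0 hη1 hS
  have h6 : (1 + |c|) ≤ 1 / η := by
    rw [le_div_iff₀ h0]
    have := h1.trans (min_le_left _ _)
    rwa [le_div_iff₀ (by positivity), mul_comm] at this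
  have h7 : exp (-(S / η)) * exp (c * S) ≤ η := by
    rw [← exp_add]
    have h8 : -(S / η) + c * S ≤ -S := by
      have h9 : (1 + |c|) * S ≤ (1 / η) * S := mul_le_mul_of_nonneg_right h6 h4.le
      have h10 : c * S ≤ |c| * S := mul_le_mul_of_nonneg_right (le_abs_self c) h4.le
      have h11 : S / η = (1 / η) * S := by ring
      rw [h11]
      linarith
    calc exp (-(S / η) + c * S) ≤ exp (-S) := exp_le_exp.2 h8
      _ ≤ 1 / S := by
          rw [exp_neg, ← one_div]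
          exact one_div_le_one_div_of_le h4 (by linarith [add_one_le_exp S])
      _ ≤ η := h5
  have h8 : 0 ≤ exp (-(S / η)) * exp (c * S) := by positivity
  calc K * (exp (-(S / η)) * exp (c * S)) ≤ (1 + |K|) * (exp (-(S / η)) * exp (c * S)) :=
        mul_le_mul_of_nonneg_right (by linarith [le_abs_self K]) h8
    _ ≤ (1 + |K|) * η := mul_le_mul_of_nonneg_left h7 (by positivity)
    _ ≤ (1 + |K|) * (ε / (1 + |K|)) :=
        mul_le_mul_of_nonneg_left (h1.trans (min_le_right _ _)) (by positivity)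
    _ = ε := by field_simp

/-- static share with powers of `S` and of a radius `0 ≤ R ≤ exp (a S)` -/
theorem share_small_R (K c a ε : ℝ) (n : ℕ) (hε : 0 < ε) :
    ∃ η₀ : ℝ, 0 < η₀ ∧ η₀ ≤ 1 ∧ ∀ η S R : ℝ, 0 < η → η ≤ η₀ → 1 / η ≤ S → 0 ≤ R →
      R ≤ exp (a * S) → K * (R ^ n * exp (-(S / η)) * exp (c * S)) ≤ ε := by
  obtain ⟨η₀, h0, h1, h⟩ := share_small (1 + |K|) (c + n * a) ε hε
  refine ⟨η₀, h0, h1, fun η S R hη hη' hS hR hR' => ?_⟩
  have h2 := h η S hη hη' hS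
  have h3 : R ^ n ≤ exp (n * a * S) := by
    calc R ^ n ≤ (exp (a * S)) ^ n := pow_le_pow_left₀ hR hR' n
      _ = exp (n * a * S) := by rw [← exp_nat_mul]; congr 1; ring
  have h4 : 0 ≤ R ^ n * exp (-(S / η)) * exp (c * S) := by positivity
  calc K * (R ^ n * exp (-(S / η)) * exp (c * S))
      ≤ (1 + |K|) * (R ^ n * exp (-(S / η)) * exp (c * S)) :=
        mul_le_mul_of_nonneg_right (by linarith [le_abs_self K]) h4
    _ ≤ (1 + |K|) * (exp (n * a * S) * exp (-(S / η)) * exp (c * S)) := by gcongr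
    _ = (1 + |K|) * (exp (-(S / η)) * exp ((c + n * a) * S)) := by
        rw [show (c + n * a) * S = n * a * S + c * S by ring, exp_add]
        ring
    _ ≤ ε := h2

/-- **tail of the range**: `exp (c S) / R ^ 2` with `R ≥ exp (c' S)`, `c < 2 c'` -/
theorem tail_small (K c c' ε : ℝ) (hc : c < 2 * c') (hε : 0 < ε) :
    ∃ η₀ : ℝ, 0 < η₀ ∧ η₀ ≤ 1 ∧ ∀ η S R : ℝ, 0 < η → η ≤ η₀ → 1 / η ≤ S →
      exp (c' * S) ≤ R → K * (exp (c * S) / R ^ 2) ≤ ε := by
  set d := 2 * c' - c with hd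
  have hd0 : 0 < d := by rw [hd]; linarith
  refine ⟨min 1 (ε * d / (1 + |K|)), by positivity, min_le_left _ _, ?_⟩
  intro η S R h0 h1 hS hR
  obtain ⟨h3, h4, h5⟩ := S_facts h0 (h1.trans (min_le_left _ _)) hS
  have hR0 : 0 < R := (exp_pos _).trans_le hR
  have h6 : exp (c * S) / R ^ 2 ≤ exp (-(d * S)) := by
    rw [div_le_iff₀ (by positivity)]
    have h7 : exp (2 * (c' * S)) ≤ R ^ 2 := by
      rw [two_mul, exp_add, ← sq]
      exact pow_le_pow_left₀ (exp_pos _).le hR 2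
    calc exp (c * S) = exp (-(d * S)) * exp (2 * (c' * S)) := by
          rw [← exp_add]
          congr 1
          rw [hd]
          ring
      _ ≤ exp (-(d * S)) * R ^ 2 := mul_le_mul_of_nonneg_left h7 (exp_pos _).le
  have h7 : exp (-(d * S)) ≤ 1 / (d * S) := by
    rw [exp_neg, ← one_div]
    exact one_div_le_one_div_of_le (by positivity) (by linarith [add_one_le_exp (d * S)])
  have h8 : 1 / (d * S) ≤ η / d := by
    rw [one_div, mul_inv, div_eq_mul_inv, mul_comm]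
    refine mul_le_mul_of_nonneg_right ?_ (by positivity)
    rwa [one_div] at h5
  have h9 : 0 ≤ exp (c * S) / R ^ 2 := by positivity
  calc K * (exp (c * S) / R ^ 2) ≤ (1 + |K|) * (exp (c * S) / R ^ 2) :=
        mul_le_mul_of_nonneg_right (by linarith [le_abs_self K]) h9
    _ ≤ (1 + |K|) * (η / d) :=
        mul_le_mul_of_nonneg_left (h6.trans (h7.trans h8)) (by positivity)
    _ ≤ (1 + |K|) * ((ε * d / (1 + |K|)) / d) := by
        refine mul_le_mul_of_nonneg_left ?_ (by positivity)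
        exact div_le_div_of_nonneg_right (h1.trans (min_le_right _ _)) hd0.le
    _ = ε := by field_simp

/-- all three kinds at once: one `η₀` for finitely many requirements -/
theorem eta_and {P Q : ℝ → Prop} (hP : ∃ η₀ : ℝ, 0 < η₀ ∧ η₀ ≤ 1 ∧ ∀ η, 0 < η → η ≤ η₀ → P η)
    (hQ : ∃ η₀ : ℝ, 0 < η₀ ∧ η₀ ≤ 1 ∧ ∀ η, 0 < η → η ≤ η₀ → Q η) :
    ∃ η₀ : ℝ, 0 < η₀ ∧ η₀ ≤ 1 ∧ ∀ η, 0 < η → η ≤ η₀ → P η ∧ Q η := by
  obtain ⟨a, ha, ha1, h⟩ := hP
  obtain ⟨b, hb, hb1, h'⟩ := hQ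
  exact ⟨min a b, lt_min ha hb, (min_le_left _ _).trans ha1, fun η h0 h1 =>
    ⟨h η h0 (h1.trans (min_le_left _ _)), h' η h0 (h1.trans (min_le_right _ _))⟩⟩

end P365T2.H913
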