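import Vale.Agent.P365.T2.H963.ContUps
import Vale.Agent.P365.T2.H913.LyYf

set_option linter.all false

/-!
# P365-T2: the base-point content `BB` of 775 (helper913)

`e_y |G_yy|² Σ_x e_x |c_x|² V_x = Σ_x T_xy V_x`, `e_y |G_yy|² Σ_b e_b |c_b|² t(b,y) = Σ_b T_yb t(b,y)
= pr_y V_y`, and their continuity along the line of `V_y`.
-/

namespace P365T2.H913

open P365L P365O P365T1 Matrix Finset Vale.Agent.P365.J376 P365L.T2.Path
open P365T2.H844 (tt pr Vr Pw ur TT TT_symm)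

variable {ι : Type*} [Fintype ι] [DecidableEq ι] {A : Matrix ι ι ℝ} {W : ι → ℂ}
variable {E : Type*} [NormedAddCommGroup E] [InnerProductSpace ℝ E] {Φ : ι → E}

theorem TT_eq_gw (hA : A.IsSymm) (hW : ∀ x, (W x).im < 0) (x y : ι) :
    TT A W x y = (-(W y).im) * ‖Gr A W y y‖ ^ 2 * (-(W x).im * ‖gw A W y x‖ ^ 2) := by
  unfold TT
  rw [KK_symm hA, KK_eq_gw hA hW]
  ring

/-- `e_y |G_yy|² Σ_x e_x |c_x|² g_x = Σ_x T_xy g_x`, any weights `g` -/
theorem sum_gw_eq (hA : A.IsSymm) (hW : ∀ x, (W x).im < 0) (y : ι) (g : ι → ℝ) :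
    (-(W y).im) * ‖Gr A W y y‖ ^ 2 * ∑ x, -(W x).im * ‖gw A W y x‖ ^ 2 * g x =
      ∑ x, TT A W x y * g x := by
  rw [mul_sum]
  refine sum_congr rfl fun x _ => ?_
  rw [TT_eq_gw hA hW]
  ring

/-- **775's `BB`** -/
theorem BB_eq (hA : A.IsSymm) (hW : ∀ x, (W x).im < 0) (y : ι) :
    (-(W y).im) * ‖Gr A W y y‖ ^ 2 * ∑ x, -(W x).im * ‖gw A W y x‖ ^ 2 * Vr Φ (TT A W) x =
      ∑ x, TT A W x y * Vr Φ (TT A W) x :=
  sum_gw_eq hA hW y _

/-- **775's `Nh`** -/
theorem Nh_eq (hA : A.IsSymm) (hW : ∀ x, (W x).im < 0) (y : ι) :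
    (-(W y).im) * ‖Gr A W y y‖ ^ 2 * ∑ b, -(W b).im * ‖gw A W y b‖ ^ 2 * tt Φ b y =
      pr (TT A W) y * Vr Φ (TT A W) y := by
  rw [sum_gw_eq hA hW y]
  have hp : pr (TT A W) y ≠ 0 := pr_ne hA hW y
  unfold Vr
  rw [mul_sum]
  refine sum_congr rfl fun x _ => ?_
  rw [TT_symm hA x y]
  field_simp

/-- `Σ_x T_xy P_x w = e_y ...` in the one-kernel form: base content with multipliers `ur` -/
theorem BBk_eq (hA : A.IsSymm) (hW : ∀ x, (W x).im < 0) (J k : ℕ) (y : ι) :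
    (-(W y).im) * ‖Gr A W y y‖ ^ 2 *
      ∑ x, -(W x).im * ‖gw A W y x‖ ^ 2 * Pw Φ (TT A W) J k x x =
      ∑ x, TT A W x y * Pw Φ (TT A W) J k x x :=
  sum_gw_eq hA hW y _

/-- weights `e_x |c_x|²` do not depend on `V_y` -/
theorem weight_rez (hA : A.IsSymm) (hW : ∀ x, (W x).im < 0) (y x : ι) (v : ℝ) :
    -(rez W y v x).im * ‖gw A (rez W y v) y x‖ ^ 2 = -(W x).im * ‖gw A W y x‖ ^ 2 := by
  have h1 : (rez W y v x).im = (W x).im := by
    unfold rez
    by_cases h : x = y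
    · subst h
      rw [Function.update_self, rez_im]
    · rw [Function.update_of_ne h]
  have h2 : gw A (rez W y v) y x = gw A W y x := by
    unfold rez
    exact gw_upd hA hW (by rw [rez_im]; exact hW y) x
  rw [h1, h2]

theorem rez_mem_LH (hW : W ∈ LH ι) (y : ι) (v : ℝ) : rez W y v ∈ LH ι :=
  fun x => rez_neg hW y v x

theorem continuous_rez' (W : ι → ℂ) (y : ι) : Continuous fun v : ℝ => rez W y v := by
  unfold rez
  refine continuous_const.update y ?_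
  fun_prop

/-- every functional continuous on the half plane set is continuous along the line -/
theorem continuous_line' {G : (ι → ℂ) → ℝ} (hG : ContinuousOn G (LH ι)) (hW : W ∈ LH ι) (y : ι)
    (E₀ : ℝ) : Continuous fun v : ℝ => G (rez W y (v - E₀)) :=
  hG.comp_continuous ((continuous_rez' W y).comp (continuous_id.sub continuous_const))
    fun v => rez_mem_LH hW y _

/-- `v ↦ BB (rez W y (v - E))` is continuous -/
theorem continuous_BB (hA : A.IsSymm) (hW : W ∈ LH ι) (y : ι) (E₀ : ℝ) :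
    Continuous fun v : ℝ => ∑ x, -(rez W y (v - E₀) x).im * ‖gw A (rez W y (v - E₀)) y x‖ ^ 2 *
      Vr Φ (TT A (rez W y (v - E₀))) x := by
  have h : (fun v : ℝ => ∑ x, -(rez W y (v - E₀) x).im * ‖gw A (rez W y (v - E₀)) y x‖ ^ 2 *
      Vr Φ (TT A (rez W y (v - E₀))) x) =
      fun v : ℝ => ∑ x, -(W x).im * ‖gw A W y x‖ ^ 2 * Vr Φ (TT A (rez W y (v - E₀))) x := by
    funext v
    exact sum_congr rfl fun x _ => by rw [weight_rez hA hW]
  rw [h]
  refine continuous_finsetSum _ fun x _ => continuous_const.mul ?_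
  exact continuous_line' (G := fun W => Vr Φ (TT A W) x)
    (contDiffOn_Vr (n := 0) hA x).continuousOn hW y E₀

theorem BB_nonneg (hA : A.IsSymm) (hW : ∀ x, (W x).im < 0) (y : ι) :
    0 ≤ ∑ x, -(W x).im * ‖gw A W y x‖ ^ 2 * Vr Φ (TT A W) x := by
  refine sum_nonneg fun x _ => mul_nonneg (mul_nonneg (by linarith [hW x]) (sq_nonneg _)) ?_
  exact sum_nonneg fun b _ => mul_nonneg (div_nonneg (H844.TT_nonneg hW x b)
    (sum_nonneg fun c _ => H844.TT_nonneg hW x c)) (H844.tt_nonneg b x)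

end P365T2.H913
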